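import Vale.Agent.Lib.P162.BipB

/-!
# P162: the bipartite recursion (steps 1-5 of note P162plan, part II): see `BipA`, `BipB`.
-/
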